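import Mathlib
import Vale.Agent.Lib.P060.Defs
import Vale.Agent.Lib.P060.Dense

namespace Vale.Agent.Results.P060.DenseMatching

open Vale.Agent.Lib.P060

/-- Hadwiger's conjecture for very dense graphs.  Let `G` be a finite simple graph in which every
vertex has at most `d` non-neighbours, and suppose that `G` has at least `2 * d ^ 2` pairwise
disjoint pairs of distinct non-adjacent vertices (a matching `M` of the complement).  Then for some
`t` the graph `G` is `t`-colourable and has a `K_t` minor, that is `χ(G) ≤ h(G)`. -/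
theorem result {V : Type*} [Fintype V] (G : SimpleGraph V) (d : ℕ)
    (hd : ∀ v : V, {w : V | w ≠ v ∧ ¬ G.Adj v w}.ncard ≤ d)
    (M : Finset (V × V))
    (hM1 : ∀ p ∈ M, p.1 ≠ p.2 ∧ ¬ G.Adj p.1 p.2)
    (hM2 : ∀ p ∈ M, ∀ q ∈ M, p ≠ q → p.1 ≠ q.1 ∧ p.1 ≠ q.2 ∧ p.2 ≠ q.1 ∧ p.2 ≠ q.2)
    (hcard : 2 * d ^ 2 ≤ M.card) :
    ∃ t : ℕ, G.Colorable t ∧ HasCliqueMinor G t := by
  classical
  apply dense_main G d ?_ M ⟨hM1, hM2⟩ hcard
  intro v
  have h := hd v
  rw [Set.ncard_eq_toFinset_card'] at h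
  convert h using 2
  ext w
  simp [mem_NN]

end Vale.Agent.Results.P060.DenseMatching
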