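import Mathlib
import Vale.Agent.Lib.P060.Defs
import Vale.Agent.Lib.P060.Dense
import Vale.Agent.Lib.P060.MinDeg

namespace Vale.Agent.Results.P060.MinDegree

open Vale.Agent.Lib.P060

/-- Hadwiger's conjecture for graphs of very large minimum degree.  Let `G` be a finite simple graph
in which every vertex has at most `d` non-neighbours, and suppose that at least `4 * d ^ 3` vertices
of `G` are not adjacent to all other vertices.  Then for some `t` the graph `G` is `t`-colourable and
has a `K_t` minor, that is `χ(G) ≤ h(G)`. -/
theorem result {V : Type*} [Fintype V] (G : SimpleGraph V) (d : ℕ)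
    (hd : ∀ v : V, {w : V | w ≠ v ∧ ¬ G.Adj v w}.ncard ≤ d)
    (hm : 4 * d ^ 3 ≤ {v : V | ∃ w : V, w ≠ v ∧ ¬ G.Adj v w}.ncard) :
    ∃ t : ℕ, G.Colorable t ∧ HasCliqueMinor G t := by
  classical
  apply minDeg_main G d
  · intro v
    have h := hd v
    rw [Set.ncard_eq_toFinset_card'] at h
    convert h using 2
    ext w
    simp [mem_NN]
  · rw [Set.ncard_eq_toFinset_card'] at hm
    convert hm using 2
    ext v
    simp [Finset.Nonempty, mem_NN]

end Vale.Agent.Results.P060.MinDegree
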